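import Mathlib
import Vale.Agent.Lib.P071.Core

namespace Vale.Agent.Results.P071.AnnularSectors

open Set MeasureTheory

/-- **Strict hot spots property for all annular sectors.**

The annular sector `Ω = {(r cos φ, r sin φ) : r₁ < r < r₂, 0 < φ < α}` is written in log-polar
coordinates `x = (exp t cos θ, exp t sin θ)`, `t₁ = log r₁ < t < t₂ = log r₂`, `0 < θ < α`.
In these coordinates the Laplacian is `exp (-2t) (∂_t² + ∂_θ²)`, area is `exp (2t) dt dθ`, the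
Dirichlet integral is `∫∫ (v_t² + v_θ²) dt dθ`, and the normal derivative on the four sides of
`∂Ω` is a multiple of `∂_t` (arcs `t = t₁, t₂`) or `∂_θ` (radial sides `θ = 0, α`).

Hypotheses: `u` is a `C²` function which on the closed coordinate rectangle solves
`Δu = -μ u` (`hpde`), satisfies the Neumann condition on the four sides (`hN₁`, `hN₂`), is not
identically zero (`hne`), and `μ > 0` is at most the Rayleigh quotient of every Lipschitz
function of mean zero over `Ω` (`hmin`), that is `μ ≤ μ₁(Ω)`. Together these say that `μ = μ₁(Ω)`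
and `u` is a first nontrivial Neumann eigenfunction of `Ω`.

Conclusion: at every interior point `u` is strictly larger than its value at some boundary point
`p` and strictly smaller than its value at some boundary point `q`. -/
theorem result (t₁ t₂ α μ : ℝ) (ht : t₁ < t₂) (hα : 0 < α) (hμ : 0 < μ)
    (u : ℝ × ℝ → ℝ) (hu : ContDiff ℝ 2 u)
    (hpde : ∀ t ∈ Icc t₁ t₂, ∀ θ ∈ Icc (0:ℝ) α,
        deriv (fun s => deriv (fun r => u (r, θ)) s) t
          + deriv (fun s => deriv (fun r => u (t, r)) s) θ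
            = - (μ * Real.exp (2 * t)) * u (t, θ))
    (hN₁ : ∀ θ ∈ Icc (0:ℝ) α,
        deriv (fun r => u (r, θ)) t₁ = 0 ∧ deriv (fun r => u (r, θ)) t₂ = 0)
    (hN₂ : ∀ t ∈ Icc t₁ t₂,
        deriv (fun r => u (t, r)) 0 = 0 ∧ deriv (fun r => u (t, r)) α = 0)
    (hne : ∃ t ∈ Icc t₁ t₂, ∃ θ ∈ Icc (0:ℝ) α, u (t, θ) ≠ 0)
    (hmin : ∀ (K : NNReal) (v : ℝ × ℝ → ℝ), LipschitzWith K v →
      (∫ t in t₁..t₂, ∫ θ in (0:ℝ)..α, Real.exp (2 * t) * v (t, θ)) = 0 →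
      μ * ∫ t in t₁..t₂, ∫ θ in (0:ℝ)..α, Real.exp (2 * t) * v (t, θ) ^ 2
        ≤ ∫ t in t₁..t₂, ∫ θ in (0:ℝ)..α,
            (deriv (fun r => v (r, θ)) t ^ 2 + deriv (fun r => v (t, r)) θ ^ 2)) :
    ∀ t ∈ Ioo t₁ t₂, ∀ θ ∈ Ioo (0:ℝ) α,
      ∃ p q : ℝ × ℝ,
        (p.1 ∈ Icc t₁ t₂ ∧ p.2 ∈ Icc (0:ℝ) α ∧ (p.1 = t₁ ∨ p.1 = t₂ ∨ p.2 = 0 ∨ p.2 = α)) ∧
        (q.1 ∈ Icc t₁ t₂ ∧ q.2 ∈ Icc (0:ℝ) α ∧ (q.1 = t₁ ∨ q.1 = t₂ ∨ q.2 = 0 ∨ q.2 = α)) ∧
        u p < u (t, θ) ∧ u (t, θ) < u q := by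
  have hw : Continuous (fun t : ℝ => Real.exp (2 * t)) := by fun_prop
  have hpos : ∀ t : ℝ, 0 < Real.exp (2 * t) := fun t => Real.exp_pos _
  have hR : Vale.Agent.Lib.P071.RayleighMin t₁ t₂ α μ (fun t : ℝ => Real.exp (2 * t)) := hmin
  exact Vale.Agent.Lib.P071.hot_spots_rect ht hα hμ hw hpos hu hpde hN₁ hN₂ hne hR

end Vale.Agent.Results.P071.AnnularSectors
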