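import Mathlib
import Vale.Agent.Lib.P071.LR.FinalGen

namespace Vale.Agent.Results.P071.ConfocalConicDomains

open Set MeasureTheory

/-- **Strict hot spots property for all coordinate rectangles of elliptic coordinates: domains
bounded by arcs of two confocal ellipses and two confocal hyperbolas, in any position.**

Elliptic coordinates with foci `(±c, 0)`: `(X, Y) = (c cosh ξ cos η, c sinh ξ sin η)`, that is
`X + iY = c cosh (ξ + iη)`. The curves `ξ = const` are confocal ellipses and the curves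
`η = const` are branches of confocal hyperbolas (`ξ = 0` is the focal segment, `η ∈ πℤ` are the
two rays of the focal axis outside the foci); the foci are the points `(ξ, η) = (0, kπ)`. The map
is conformal with `|dz/dζ|² = c² (sinh² ξ + sin² η)`, so the Laplacian is
`(c² (sinh² ξ + sin² η))⁻¹ (∂_ξ² + ∂_η²)`, area is `c² (sinh² ξ + sin² η) dξ dη`, the Dirichlet
integral is `∫∫ (v_ξ² + v_η²) dξ dη`, and the normal derivative on the four sides of the image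
`Ω` of the rectangle `(ξ₁,ξ₂) × (η₁,η₂)` is a multiple of `∂_ξ` (elliptic arcs `ξ = ξ₁, ξ₂`) or
`∂_η` (hyperbolic arcs `η = η₁, η₂`). The rectangle is arbitrary, except that no focus lies in
the closed rectangle other than at a corner (`hfoc`). For instance `0 < ξ₁ < ξ₂` and
`η₂ - η₁ < 2π` gives a sector of an elliptical annulus.

Hypotheses: `u` is a `C²` function which on the closed coordinate rectangle solves
`Δu = -μ u` (`hpde`), satisfies the Neumann condition on the four sides (`hN₁`, `hN₂`), is not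
identically zero (`hne`), and `μ > 0` is at most the Rayleigh quotient of every Lipschitz
function of mean zero over `Ω` (`hmin`), that is `μ ≤ μ₁(Ω)`. Together these say that
`μ = μ₁(Ω)` and `u` is a first nontrivial Neumann eigenfunction of `Ω`.

Conclusion: `u` has no critical point in the open rectangle (equivalently in `Ω`), and at every
interior point `u` is strictly larger than its value at some boundary point `p` and strictly
smaller than its value at some boundary point `q`. -/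
theorem result (c ξ₁ ξ₂ η₁ η₂ μ : ℝ) (hc : 0 < c) (hξ : ξ₁ < ξ₂) (hη : η₁ < η₂) (hμ : 0 < μ)
    (hfoc : ∀ ξ ∈ Icc ξ₁ ξ₂, ∀ η ∈ Icc η₁ η₂, (ξ ∈ Ioo ξ₁ ξ₂ ∨ η ∈ Ioo η₁ η₂) →
      (ξ ≠ 0 ∨ Real.sin η ≠ 0))
    (u : ℝ × ℝ → ℝ) (hu : ContDiff ℝ 2 u)
    (hpde : ∀ ξ ∈ Icc ξ₁ ξ₂, ∀ η ∈ Icc η₁ η₂,
        deriv (fun s => deriv (fun r => u (r, η)) s) ξ
          + deriv (fun s => deriv (fun r => u (ξ, r)) s) η
            = -(μ * (c ^ 2 * (Real.sinh ξ ^ 2 + Real.sin η ^ 2))) * u (ξ, η))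
    (hN₁ : ∀ η ∈ Icc η₁ η₂,
        deriv (fun r => u (r, η)) ξ₁ = 0 ∧ deriv (fun r => u (r, η)) ξ₂ = 0)
    (hN₂ : ∀ ξ ∈ Icc ξ₁ ξ₂,
        deriv (fun r => u (ξ, r)) η₁ = 0 ∧ deriv (fun r => u (ξ, r)) η₂ = 0)
    (hne : ∃ ξ ∈ Icc ξ₁ ξ₂, ∃ η ∈ Icc η₁ η₂, u (ξ, η) ≠ 0)
    (hmin : ∀ (K : NNReal) (v : ℝ × ℝ → ℝ), LipschitzWith K v →
      (∫ ξ in ξ₁..ξ₂, ∫ η in η₁..η₂,
        c ^ 2 * (Real.sinh ξ ^ 2 + Real.sin η ^ 2) * v (ξ, η)) = 0 →
      μ * ∫ ξ in ξ₁..ξ₂, ∫ η in η₁..η₂,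
          c ^ 2 * (Real.sinh ξ ^ 2 + Real.sin η ^ 2) * v (ξ, η) ^ 2
        ≤ ∫ ξ in ξ₁..ξ₂, ∫ η in η₁..η₂,
            (deriv (fun r => v (r, η)) ξ ^ 2 + deriv (fun r => v (ξ, r)) η ^ 2)) :
    ∀ ξ ∈ Ioo ξ₁ ξ₂, ∀ η ∈ Ioo η₁ η₂,
      ¬ (deriv (fun r => u (r, η)) ξ = 0 ∧ deriv (fun r => u (ξ, r)) η = 0) ∧
      ∃ p q : ℝ × ℝ,
        (p.1 ∈ Icc ξ₁ ξ₂ ∧ p.2 ∈ Icc η₁ η₂ ∧ (p.1 = ξ₁ ∨ p.1 = ξ₂ ∨ p.2 = η₁ ∨ p.2 = η₂)) ∧
        (q.1 ∈ Icc ξ₁ ξ₂ ∧ q.2 ∈ Icc η₁ η₂ ∧ (q.1 = ξ₁ ∨ q.1 = ξ₂ ∨ q.2 = η₁ ∨ q.2 = η₂)) ∧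
        u p < u (ξ, η) ∧ u (ξ, η) < u q := by
  have hc2 : 0 < c ^ 2 := by positivity
  have e : ∀ x y : ℝ, c ^ 2 * Real.sinh x ^ 2 + c ^ 2 * Real.sin y ^ 2
      = c ^ 2 * (Real.sinh x ^ 2 + Real.sin y ^ 2) := fun x y => by ring
  have hf : Continuous (fun x : ℝ => c ^ 2 * Real.sinh x ^ 2) := by fun_prop
  have hg : Continuous (fun y : ℝ => c ^ 2 * Real.sin y ^ 2) := by fun_prop
  have hpos : ∀ x ∈ Icc ξ₁ ξ₂, ∀ y ∈ Icc η₁ η₂, (x ∈ Ioo ξ₁ ξ₂ ∨ y ∈ Ioo η₁ η₂) →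
      0 < c ^ 2 * Real.sinh x ^ 2 + c ^ 2 * Real.sin y ^ 2 := by
    intro x hx y hy hxy
    have hs : 0 ≤ c ^ 2 * Real.sinh x ^ 2 := by positivity
    have ht : 0 ≤ c ^ 2 * Real.sin y ^ 2 := by positivity
    rcases hfoc x hx y hy hxy with h | h
    · have h1 : Real.sinh x ≠ 0 := fun h0 => h (Real.sinh_eq_zero.1 h0)
      have : 0 < c ^ 2 * Real.sinh x ^ 2 := by positivity
      linarith
    · have : 0 < c ^ 2 * Real.sin y ^ 2 := by positivity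
      linarith
  have hR : Vale.Agent.Lib.P071.LR.RayleighMin2 ξ₁ ξ₂ η₁ η₂ μ
      (fun x : ℝ => c ^ 2 * Real.sinh x ^ 2) (fun y : ℝ => c ^ 2 * Real.sin y ^ 2) := by
    intro K v hv hmean
    simp only [e] at hmean ⊢
    exact hmin K v hv hmean
  exact Vale.Agent.Lib.P071.LR.hot_spots_separable hξ hη hμ hf hg hpos hu
    (by
      intro x hx y hy
      rw [hpde x hx y hy, e]) hN₁ hN₂ hne hR

end Vale.Agent.Results.P071.ConfocalConicDomains
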