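import Mathlib
import Vale.Agent.Lib.P071.LR.FinalGen

namespace Vale.Agent.Results.P071.SeparableWeights

open Set MeasureTheory

/-- **Strict hot spots property for every coordinate rectangle of separable conformal
coordinates, with no monotonicity or symmetry assumption.**

Let `z = F(x + iy)` be conformal coordinates of the plane whose conformal factor separates,
`|F'(x + iy)|² = f x + g y`. In these coordinates the Laplacian is
`(f x + g y)⁻¹ (∂_x² + ∂_y²)`, area is `(f x + g y) dx dy`, the Dirichlet integral is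
`∫∫ (v_x² + v_y²) dx dy`, and the normal derivative on the four sides of the image `Ω` of the
coordinate rectangle `(x₁,x₂) × (y₁,y₂)` is a multiple of `∂_x` (sides `x = x₁, x₂`) or `∂_y`
(sides `y = y₁, y₂`). Examples: `F = c cosh` with `f x = c² sinh² x`, `g y = c² sin² y`
(elliptic coordinates, `Ω` is bounded by arcs of two confocal ellipses and two confocal
hyperbolas, in any position), `F ζ = ζ² / 2` with `f x = x²`, `g y = y²` (parabolic coordinates,
`Ω` is bounded by arcs of confocal parabolas), `F = exp` with `f x = exp (2x)`, `g = 0`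
(annular sectors).

Hypotheses: `f`, `g` are continuous and `f x + g y > 0` on the closed rectangle except possibly
at its four corners. `u` is a `C²` function which on the closed coordinate rectangle solves
`Δu = -μ u` (`hpde`), satisfies the Neumann condition on the four sides (`hN₁`, `hN₂`), is not
identically zero (`hne`), and `μ > 0` is at most the Rayleigh quotient of every Lipschitz
function of mean zero over `Ω` (`hmin`), that is `μ ≤ μ₁(Ω)`. Together these say that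
`μ = μ₁(Ω)` and `u` is a first nontrivial Neumann eigenfunction of `Ω`.

Conclusion: `u` has no critical point in the open rectangle (equivalently in `Ω`), and at every
interior point `u` is strictly larger than its value at some boundary point `p` and strictly
smaller than its value at some boundary point `q`. -/
theorem result (x₁ x₂ y₁ y₂ μ : ℝ) (hx : x₁ < x₂) (hy : y₁ < y₂) (hμ : 0 < μ)
    (f g : ℝ → ℝ) (hf : Continuous f) (hg : Continuous g)
    (hpos : ∀ x ∈ Icc x₁ x₂, ∀ y ∈ Icc y₁ y₂, (x ∈ Ioo x₁ x₂ ∨ y ∈ Ioo y₁ y₂) → 0 < f x + g y)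
    (u : ℝ × ℝ → ℝ) (hu : ContDiff ℝ 2 u)
    (hpde : ∀ x ∈ Icc x₁ x₂, ∀ y ∈ Icc y₁ y₂,
        deriv (fun s => deriv (fun r => u (r, y)) s) x
          + deriv (fun s => deriv (fun r => u (x, r)) s) y
            = -(μ * (f x + g y)) * u (x, y))
    (hN₁ : ∀ y ∈ Icc y₁ y₂,
        deriv (fun r => u (r, y)) x₁ = 0 ∧ deriv (fun r => u (r, y)) x₂ = 0)
    (hN₂ : ∀ x ∈ Icc x₁ x₂,
        deriv (fun r => u (x, r)) y₁ = 0 ∧ deriv (fun r => u (x, r)) y₂ = 0)
    (hne : ∃ x ∈ Icc x₁ x₂, ∃ y ∈ Icc y₁ y₂, u (x, y) ≠ 0)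
    (hmin : ∀ (K : NNReal) (v : ℝ × ℝ → ℝ), LipschitzWith K v →
      (∫ x in x₁..x₂, ∫ y in y₁..y₂, (f x + g y) * v (x, y)) = 0 →
      μ * ∫ x in x₁..x₂, ∫ y in y₁..y₂, (f x + g y) * v (x, y) ^ 2
        ≤ ∫ x in x₁..x₂, ∫ y in y₁..y₂,
            (deriv (fun r => v (r, y)) x ^ 2 + deriv (fun r => v (x, r)) y ^ 2)) :
    ∀ x ∈ Ioo x₁ x₂, ∀ y ∈ Ioo y₁ y₂,
      ¬ (deriv (fun r => u (r, y)) x = 0 ∧ deriv (fun r => u (x, r)) y = 0) ∧
      ∃ p q : ℝ × ℝ,
        (p.1 ∈ Icc x₁ x₂ ∧ p.2 ∈ Icc y₁ y₂ ∧ (p.1 = x₁ ∨ p.1 = x₂ ∨ p.2 = y₁ ∨ p.2 = y₂)) ∧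
        (q.1 ∈ Icc x₁ x₂ ∧ q.2 ∈ Icc y₁ y₂ ∧ (q.1 = x₁ ∨ q.1 = x₂ ∨ q.2 = y₁ ∨ q.2 = y₂)) ∧
        u p < u (x, y) ∧ u (x, y) < u q := by
  have hR : Vale.Agent.Lib.P071.LR.RayleighMin2 x₁ x₂ y₁ y₂ μ f g := hmin
  exact Vale.Agent.Lib.P071.LR.hot_spots_separable hx hy hμ hf hg hpos hu hpde hN₁ hN₂ hne hR

end Vale.Agent.Results.P071.SeparableWeights
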